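import Vale.Agent.P093.U.Defs
import Vale.Agent.P093.Hom.ResultDefs

/-!
# P093: assembly of the final theorem from its parts

`final_of`: `mdim(h) / 2 ≤ rc(A)` for all minimal `h` from

* part D + A (`DA`): a comparison bound `r < mdim(h) / 2` produces a cover `W`, a window of length
  `N` and a unital space `(C, u)` with `CSmall` of order `d`, `d / N < δ(W)`, and `Good C u`;
* part N: `Good C u` implies `LR C u`;
* part U (`U.main`): `CSmall` and `LR` imply `δ(W) ≤ d / N`.
-/

open Filter TopologicalSpace Set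
open Vale.Agent.P251.St (Space)
open scoped ENNReal

namespace Vale.Agent.P093.Final

universe u v

/-- The predicate on unital spaces which links parts A and N. -/
abbrev Pred : Type 1 := ∀ {t : ℕ} (C : Space) (_ : (Fin t → ℝ) → C.carrier), Prop

/-- output of the dynamical part (D + A) for one system and one comparison bound -/
def DA (Good : Pred) {X : Type u} [TopologicalSpace X] (h : X ≃ₜ X) : Prop :=
  ∃ (W : Set (Set X)) (N t d : ℕ) (C : Space) (w : (Fin t → ℝ) → C.carrier),
    IsFinOpenCover W ∧ 0 < N ∧ Topology.IsClosedEmbedding w ∧ Good C w ∧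
      U.CSmall (iterCover h W N) C w d ∧ (d : ℝ≥0∞) / N < coverRate h W

/-- statement of part U -/
def PartU (X : Type u) [TopologicalSpace X] (h : X ≃ₜ X) : Prop :=
  ∀ (W : Set (Set X)), IsFinOpenCover W → ∀ (N t d : ℕ), 0 < N → ∀ (C : Space)
    (w : (Fin t → ℝ) → C.carrier), Topology.IsClosedEmbedding w →
      U.CSmall (iterCover h W N) C w d → U.LR C w →
      limsup (fun n : ℕ => (coverDim (iterCover h W n) : ℝ≥0∞) / n) atTop ≤ (d : ℝ≥0∞) / N

theorem final_of (Good : Pred)
    (hN : ∀ {t : ℕ} (C : Space) (w : (Fin t → ℝ) → C.carrier), Good C w → U.LR C w)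
    (hU : ∀ (X : Type u) [TopologicalSpace X] [CompactSpace X] [T2Space X] (h : X ≃ₜ X),
      PartU X h)
    (hDA : ∀ (X : Type u) [TopologicalSpace X] [CompactSpace X] [MetrizableSpace X] [Infinite X]
      (h : X ≃ₜ X), IsMinimalHomeo h →
      ∀ (A : Type v) [CStarAlgebra A] [PartialOrder A] [StarOrderedRing A],
        IsCrossedProduct h A → ∀ r : ℝ, IsComparisonBound A r →
        ENNReal.ofReal r < meanDim h / 2 → DA Good h) :
    ∀ (X : Type u) [TopologicalSpace X] [CompactSpace X] [MetrizableSpace X] [Infinite X]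
      (h : X ≃ₜ X), IsMinimalHomeo h →
      ∀ (A : Type v) [CStarAlgebra A] [PartialOrder A] [StarOrderedRing A],
        IsCrossedProduct h A → meanDim h / 2 ≤ radiusOfComparison A := by
  intro X _ _ _ _ h hmin A _ _ _ hA
  refine le_iInf fun r => ?_
  by_contra hr
  obtain ⟨W, N, t, d, C, w, hW, hN0, hw, hG, hC, hlt⟩ :=
    hDA X h hmin A hA r.1 r.2 (not_le.mp hr)
  exact absurd (hU X h W hW N t d hN0 C w hw hC (hN C w hG)) (not_le.mpr hlt)

end Vale.Agent.P093.Final
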