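import Vale.Agent.P093.Final.Static
import Vale.Agent.P093.D.FamilyLin

/-!
# P093: the dynamical part D, from the linear family to `StaticThm`

The linear version of `dc_main` and `dyn_cover` of the starting files: from `StaticThm` and a
comparison bound `r` we get `CSmall` for the iterated covers `𝒰^[0,N)`.
-/

open Set Filter
open scoped ENNReal
open Vale.Agent.P251.St (Space)
open Vale.Agent.P093.Hom

namespace Vale.Agent.P093.Final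

universe u v

/-- all conditions on the linear family, for the window starts in `[-R, N + R)` -/
structure LinFam {X : Type*} [MetricSpace X] (h : X ≃ₜ X) {κ t : ℕ} (ω : C(X, ℝ))
    (ψ : Fin t → ℕ → C(X, ℝ)) (R N p : ℕ)
    (F : Fin (N + 2 * R) → Fin t → Fin κ → Fin 2 → X → (Fin p → ℂ) →ₗ[ℂ] ℂ) :
    Prop where
  cont : ∀ i G k e, Continuous fun z : X × (Fin p → ℂ) => F i G k e z.1 z.2
  ne : ∀ x q, q ≠ 0 → ∃ i G k e, F i G k e x q ≠ 0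
  supp : ∀ (i : Fin (N + 2 * R)) G k e x q, F i G k e x q ≠ 0 →
    3 / 4 < ω ((h ^ ((i : ℕ) - (R : ℤ) : ℤ)) x)
  hopf : ∀ (i : Fin (N + 2 * R)) G (k : Fin κ) x q (x' : X),
    x' = (h ^ ((i : ℕ) - (R : ℤ) : ℤ)) x →
    rho k / 2 ≤ rad (nF (fun j x => ψ G j x - 1 / 2) rho k)
      (fun x => ψ G (2 * k + 1) x - 1 / 2) (fun x => ψ G (2 * k + 2) x - 1 / 2) x' →
    HopfRel (nF (fun j x => ψ G j x - 1 / 2) rho k x')
      (ψ G (2 * k + 1) x' - 1 / 2) (ψ G (2 * k + 2) x' - 1 / 2)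
      (F i G k 0 x q) (F i G k 1 x q)

open scoped Classical in
/-- more window starts -/
theorem LinFam.extend {X : Type*} [MetricSpace X] {h : X ≃ₜ X} {κ t : ℕ} {ω : C(X, ℝ)}
    {ψ : Fin t → ℕ → C(X, ℝ)} {R N p : ℕ}
    {F : Fin (N + 2 * R) → Fin t → Fin κ → Fin 2 → X → (Fin p → ℂ) →ₗ[ℂ] ℂ}
    (hF : LinFam h ω ψ R N p F) (L : ℕ) :
    ∃ F', LinFam (κ := κ) (t := t) h ω ψ (R + L) N p F' := by
  let F' : Fin (N + 2 * (R + L)) → Fin t → Fin κ → Fin 2 → X →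
      (Fin p → ℂ) →ₗ[ℂ] ℂ := fun i G k e x =>
    if hi : L ≤ (i : ℕ) ∧ (i : ℕ) < L + (N + 2 * R) then
      F ⟨(i : ℕ) - L, by omega⟩ G k e x else 0
  have hpos : ∀ (i : Fin (N + 2 * (R + L))) (hi : L ≤ (i : ℕ) ∧ (i : ℕ) < L + (N + 2 * R)),
      ∀ G k e, F' i G k e = F ⟨(i : ℕ) - L, by omega⟩ G k e := by
    intro i hi G k e
    funext x
    exact dif_pos hi
  have hneg : ∀ (i : Fin (N + 2 * (R + L))), ¬ (L ≤ (i : ℕ) ∧ (i : ℕ) < L + (N + 2 * R)) →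
      ∀ G k e, F' i G k e = fun _ => 0 := by
    intro i hi G k e
    funext x
    exact dif_neg hi
  have hexp : ∀ (i : Fin (N + 2 * (R + L))), L ≤ (i : ℕ) →
      (((i : ℕ) - L : ℕ) : ℤ) - (R : ℤ) = ((i : ℕ) : ℤ) - ((R + L : ℕ) : ℤ) := by
    intro i hi
    omega
  refine ⟨F', ⟨?_, ?_, ?_, ?_⟩⟩
  · intro i G k e
    by_cases hi : L ≤ (i : ℕ) ∧ (i : ℕ) < L + (N + 2 * R)
    · rw [hpos i hi]
      exact hF.cont _ _ _ _
    · rw [hneg i hi]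
      exact continuous_const
  · intro x q hq
    obtain ⟨i, G, k, e, hne⟩ := hF.ne x q hq
    have hi : L ≤ (i : ℕ) + L ∧ (i : ℕ) + L < L + (N + 2 * R) := by
      have := i.2
      omega
    refine ⟨⟨(i : ℕ) + L, by omega⟩, G, k, e, ?_⟩
    rw [hpos _ hi]
    convert hne using 3
    simp
  · intro i G k e x q hne
    by_cases hi : L ≤ (i : ℕ) ∧ (i : ℕ) < L + (N + 2 * R)
    · rw [hpos i hi] at hne
      have h1 := hF.supp _ G k e x q hne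
      simp only [hexp i hi.1] at h1
      exact h1
    · rw [hneg i hi] at hne
      exact absurd rfl hne
  · intro i G k x q x' hx' hrad
    by_cases hi : L ≤ (i : ℕ) ∧ (i : ℕ) < L + (N + 2 * R)
    · rw [hpos i hi, hpos i hi]
      refine hF.hopf _ G k x q x' ?_ hrad
      rw [hx']
      simp only [hexp i hi.1]
    · rw [hneg i hi, hneg i hi]
      exact dc_hopf_zero _ _ _

open scoped Classical in
/-- `CSmall` of an iterated cover, from a family -/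
theorem csmall_of_family (hst : StaticThm.{u}) {X : Type u} [MetricSpace X] [CompactSpace X]
    {h : X ≃ₜ X}
    {𝒰 : Set (Set X)} (h𝒰 : IsFinOpenCover 𝒰) {κ t L R N n n₁ a D : ℕ} (hκ : 1 ≤ κ) (hL : 0 < L) (hLR : L ≤ R)
    (ω : C(X, ℝ)) (ht : t * (2 * κ + 1) ≤ n + 1) (ψ ψ₁ : ℕ → C(X, ℝ)) (P P₁ : ℕ → X → Set X)
    (hψ01 : ∀ c x, 0 ≤ ψ c x ∧ ψ c x ≤ 1) (hψ₁01 : ∀ c x, 0 ≤ ψ₁ c x ∧ ψ₁ c x ≤ 1)
    (hψ : ∀ x, ∃ c ≤ n, ψ c x = 1) (hψ₁ : ∀ x, ∃ c ≤ n₁, ψ₁ c x = 1)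
    (hP : ∀ c x, 0 < ψ c x → P c x ∈ iterCover h 𝒰 L ∧ x ∈ P c x)
    (hP₁ : ∀ c x, 0 < ψ₁ c x → P₁ c x ∈ 𝒰 ∧ x ∈ P₁ c x)
    (hPl : ∀ c, ∀ ε > 0, ∃ δ > 0, ∀ x x', dist x x' < δ → ε ≤ ψ c x →
      P c x' = P c x ∧ x' ∈ P c x)
    (hPl₁ : ∀ c, ∀ ε > 0, ∃ δ > 0, ∀ x x', dist x x' < δ → ε ≤ ψ₁ c x →
      P₁ c x' = P₁ c x ∧ x' ∈ P₁ c x)
    (U₀ : Set X) (hU₀ : U₀ ∈ 𝒰)
    (F : Fin (N + 2 * R) → Fin t → Fin κ → Fin 2 → X → (Fin (2 * κ * a + 1) → ℂ) →ₗ[ℂ] ℂ)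
    (hF : LinFam h ω (fun G k => ψ ((G : ℕ) * (2 * κ + 1) + k)) R N (2 * κ * a + 1) F)
    (hD : ∀ x, (n + 1) *
        ((Finset.Ico (-(R : ℤ)) (N + R)).filter fun i => ω ((h ^ i) x) ≠ 0).card +
      (n₁ + 1) * ((Finset.range N).filter fun j : ℕ => ∀ i : ℤ, (j : ℤ) - L < i → i ≤ j →
        ω ((h ^ i) x) < 3 / 4).card ≤ D + a + 1) :
    HasCSmall (iterCover h 𝒰 N) D := by
  have hfV : ∀ V, ∃ f : ℕ → Set X, V ∈ iterCover h 𝒰 L → (∀ j, f j ∈ 𝒰) ∧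
      V = ⋂ j ∈ Finset.range L, (⇑(h ^ j)) ⁻¹' (f j) := by
    intro V
    by_cases hV : V ∈ iterCover h 𝒰 L
    · obtain ⟨f, hf, hVf⟩ := hV
      exact ⟨f, fun _ => ⟨hf, hVf⟩⟩
    · exact ⟨fun _ => U₀, fun h => absurd h hV⟩
  choose fV hfV using hfV
  obtain ⟨δ₁, hδ₁, hW⟩ := dc_label (κ := κ) (t := t) (R := R) (N := N) h hL hLR ω ht ψ ψ₁ P P₁
    hψ01 hψ₁01 hψ hψ₁ hP hP₁ hPl hPl₁ fV hfV U₀ hU₀
  refine hst X ((ℤ × ℕ) ⊕ (ℕ × ℕ)) κ a _ hκ (dcChi h L ω ψ ψ₁) (dcChi_cont h L ω ψ ψ₁)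
    (dcCrd κ t R N) (dcSs κ t R N n n₁).toList
    (fun γ => F (finProdFinEquiv.symm γ).1 (finProdFinEquiv.symm γ).2)
    (fun γ k e => hF.cont _ _ k e) ?_ ?_
    (fun γ => {x | 1 / 4 < ω ((h ^ ((((finProdFinEquiv.symm γ).1 : ℕ) : ℤ) - R)) x)})
    ?_ ?_ (iterCover h 𝒰 N) (isFinOpenCover_iterCover h h𝒰 N)
    (fun x A => ⋂ j ∈ Finset.range N, (⇑(h ^ j)) ⁻¹' (dcU h L P P₁ fV U₀ x A j)) δ₁ hδ₁ hW D
    (fun x => by
      have h1 := dc_count h ω ht ψ ψ₁ x (hD x)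
      convert h1 using 3)
  · intro x q hq
    obtain ⟨i, G, k, e, hne⟩ := hF.ne x q hq
    refine ⟨finProdFinEquiv (i, G), k, e, ?_⟩
    simp only [Equiv.symm_apply_apply]
    exact hne
  · intro γ k x q hrad
    by_cases h0 : F (finProdFinEquiv.symm γ).1 (finProdFinEquiv.symm γ).2 k 0 x q = 0 ∧
        F (finProdFinEquiv.symm γ).1 (finProdFinEquiv.symm γ).2 k 1 x q = 0
    · rw [h0.1, h0.2]
      exact dc_hopf_zero _ _ _
    · have h34 : 3 / 4 < ω ((h ^ ((((finProdFinEquiv.symm γ).1 : ℕ) : ℤ) - R)) x) := by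
        by_contra hcon
        refine h0 ⟨?_, ?_⟩
        · by_contra hne
          exact hcon (hF.supp _ _ _ _ _ _ hne)
        · by_contra hne
          exact hcon (hF.supp _ _ _ _ _ _ hne)
      have hχ : ∀ j, dcChi h L ω ψ ψ₁ (dcCrd κ t R N γ j) x =
          ψ (((finProdFinEquiv.symm γ).2 : ℕ) * (2 * κ + 1) + j)
            ((h ^ ((((finProdFinEquiv.symm γ).1 : ℕ) : ℤ) - R)) x) := by
        intro j
        change dcT (ω ((h ^ ((((finProdFinEquiv.symm γ).1 : ℕ) : ℤ) - R)) x)) *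
          ψ (((finProdFinEquiv.symm γ).2 : ℕ) * (2 * κ + 1) + j)
            ((h ^ ((((finProdFinEquiv.symm γ).1 : ℕ) : ℤ) - R)) x) = _
        rw [dcT_one (by linarith), one_mul]
      have hnF := dc_nF_congr (fun i x => dcChi h L ω ψ ψ₁ (dcCrd κ t R N γ i) x - 1 / 2)
        (fun j x => ψ (((finProdFinEquiv.symm γ).2 : ℕ) * (2 * κ + 1) + j) x - 1 / 2) rho x
        ((h ^ ((((finProdFinEquiv.symm γ).1 : ℕ) : ℤ) - R)) x)
        (fun j => by simp only [hχ]) k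
      have h4 := hF.hopf (finProdFinEquiv.symm γ).1 (finProdFinEquiv.symm γ).2 k x q _ rfl
      simp only [rad] at hrad h4
      rw [hnF, hχ, hχ] at hrad
      rw [hnF, hχ, hχ]
      exact h4 hrad
  · intro γ k e x q hne
    have := hF.supp _ _ _ _ _ _ hne
    rw [mem_ofPred_eq]
    linarith
  · intro γ x hx i _
    rw [mem_ofPred_eq, not_lt] at hx
    change dcT (ω ((h ^ ((((finProdFinEquiv.symm γ).1 : ℕ) : ℤ) - R)) x)) *
      ψ (((finProdFinEquiv.symm γ).2 : ℕ) * (2 * κ + 1) + i)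
        ((h ^ ((((finProdFinEquiv.symm γ).1 : ℕ) : ℤ) - R)) x) ≤ 1 / 8
    rw [dcT_zero hx, zero_mul]
    norm_num

/-- `CSmall` for the iterated covers, from a comparison bound -/
theorem dyn_csmall (hst : StaticThm.{u}) {X : Type u} [MetricSpace X] [CompactSpace X]
    [Infinite X]
    {A : Type v} [CStarAlgebra A] [PartialOrder A] [StarOrderedRing A] {h : X ≃ₜ X}
    (hmin : IsMinimalHomeo h) (hA : IsCrossedProduct h A) {r : ℝ} (hr : IsComparisonBound A r)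
    {𝒰 : Set (Set X)} (h𝒰 : IsFinOpenCover 𝒰) {κ L : ℕ} (hκ : 1 ≤ κ) (hL : 0 < L) {ε : ℝ}
    (hε : 0 < ε) {s : ℝ} (hs0 : 0 ≤ s)
    (hs : s + r < κ * ((coverDim (iterCover h 𝒰 L) + 1) / (2 * κ + 1) : ℕ) * (1 - ε) / L) :
    ∃ C' : ℝ, ∀ N a D : ℕ, (2 * κ * a + 1 : ℝ) ≤ s * N - C' →
      (coverDim (iterCover h 𝒰 L) + 1) * (N / L : ℝ) + (coverDim 𝒰 + 1) * (ε * N) + C' ≤
        D + a + 1 → HasCSmall (iterCover h 𝒰 N) D := by
  classical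
  obtain ⟨ψ, P, hψ01, hψ, hP, hPl⟩ := exists_colours _ (isFinOpenCover_iterCover h h𝒰 L)
  obtain ⟨ψ₁, P₁, hψ₁01, hψ₁, hP₁, hPl₁⟩ := exists_colours _ h𝒰
  obtain ⟨ω, hω0, hω1, hsep, hcount⟩ := exists_tower h hmin L hL hε
  obtain ⟨R₀, C₀, hfam⟩ := exists_family_lin (κ := κ)
    (t := (coverDim (iterCover h 𝒰 L) + 1) / (2 * κ + 1)) hmin hA hr ω hω0 hω1 hcount
    (fun G k => ψ ((G : ℕ) * (2 * κ + 1) + k)) hs0 hs
  obtain ⟨C₁, hC₁⟩ := count_uncovered h hL ω hsep hε hcount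
  have hU₀ : ∃ U₀, U₀ ∈ 𝒰 := by
    have h1 : (Classical.arbitrary X) ∈ ⋃₀ 𝒰 := by rw [h𝒰.2.2]; trivial
    obtain ⟨U, hU, -⟩ := h1
    exact ⟨U, hU⟩
  obtain ⟨U₀, hU₀⟩ := hU₀
  have hL' : (0 : ℝ) < L := Nat.cast_pos.mpr hL
  have e1 : (0 : ℝ) ≤ (coverDim (iterCover h 𝒰 L) + 1) * (2 * ((R₀ + L : ℕ) : ℝ) / L + 1) := by
    positivity
  have e2 : (0 : ℝ) ≤ (coverDim 𝒰 + 1) * |C₁| := by positivity
  refine ⟨|C₀| + (coverDim (iterCover h 𝒰 L) + 1) * (2 * ((R₀ + L : ℕ) : ℝ) / L + 1) +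
    (coverDim 𝒰 + 1) * |C₁|, fun N a D h1 h2 => ?_⟩
  obtain ⟨F, f1, f2, f3, f4⟩ := hfam N (2 * κ * a + 1) (by
    have := le_abs_self C₀
    push_cast
    linarith)
  have hF : LinFam h ω (fun (G : Fin ((coverDim (iterCover h 𝒰 L) + 1) / (2 * κ + 1))) k =>
      ψ ((G : ℕ) * (2 * κ + 1) + k)) R₀ N (2 * κ * a + 1) F :=
    ⟨f1, f2, f3, fun i G k x q x' hx' hrad => by
      subst hx'
      exact f4 i G k x q hrad⟩
  obtain ⟨F', hF'⟩ := hF.extend L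
  refine csmall_of_family hst h𝒰 hκ hL (Nat.le_add_left L R₀) ω (Nat.div_mul_le_self _ _) ψ ψ₁ P P₁
    hψ01 hψ₁01 hψ hψ₁ hP hP₁ hPl hPl₁ U₀ hU₀ F' hF' fun x => ?_
  have g1 := count_windows h hL ω hsep x (-((R₀ + L : ℕ) : ℤ)) (N + ((R₀ + L : ℕ) : ℤ)) (by omega)
  have g2 := hC₁ x N
  have g3 := mul_le_mul_of_nonneg_left g1
    (by positivity : (0 : ℝ) ≤ (coverDim (iterCover h 𝒰 L) + 1))
  have g4 := mul_le_mul_of_nonneg_left (g2.trans (add_le_add_right (le_abs_self C₁) _))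
    (by positivity : (0 : ℝ) ≤ (coverDim 𝒰 + 1))
  have g5 : (((N + ((R₀ + L : ℕ) : ℤ) - -((R₀ + L : ℕ) : ℤ) : ℤ)) : ℝ) / L + 1 =
      (N : ℝ) / L + (2 * ((R₀ + L : ℕ) : ℝ) / L + 1) := by
    push_cast
    ring
  rw [g5] at g3
  have g6 := abs_nonneg C₀
  have g7 : ((coverDim (iterCover h 𝒰 L) + 1 : ℝ) * (((Finset.Ico (-((R₀ + L : ℕ) : ℤ))
      (N + ((R₀ + L : ℕ) : ℤ))).filter fun i => ω ((h ^ i) x) ≠ 0).card : ℝ) +
      (coverDim 𝒰 + 1) * (((Finset.range N).filter fun j : ℕ => ∀ i : ℤ, (j : ℤ) - L < i → i ≤ j →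
        ω ((h ^ i) x) < 3 / 4).card : ℝ)) ≤ D + a + 1 := by
    nlinarith [g3, g4, h2, g6]
  exact_mod_cast g7

end Vale.Agent.P093.Final
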