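import Vale.Agent.P093.Final.Assemble
import Vale.Agent.P251.G.ThMap

/-!
# P093: the predicate which links parts A and N

`ThGood C w` : up to a homeomorphism, `C` is a Grassmannian Thom space `Th n J` of the P251 library
and `w` is the inclusion of the fibre over a coordinate subspace of rank `n`, composed with a
real linear isomorphism `ℝ^t ≃ ℂ^n` (so `t = 2 n`).

Part A proves `DA ThGood h`, part N proves `ThGood C w → U.LR C w`.
-/

open Vale.Agent.P251.St (Space)
open Vale.Agent.P251.G (Th)

namespace Vale.Agent.P093.Final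

/-- the fibre of `Th n J` over the coordinate subspace `ℂ^(range f)` -/
noncomputable def thFib {n : ℕ} {J : Type} [Fintype J] [DecidableEq J] (f : Fin n → J)
    (hf : Function.Injective f) (v : Fin n → ℂ) : Th n J :=
  Th.mapFun (Vale.Agent.P251.G.injMat f) (Vale.Agent.P251.G.injMat_isom hf)
    (Th.mk 1 v (by simpa using Vale.Agent.P251.G.IsProj.one (I := Fin n))
      (Matrix.one_mulVec v))

/-- `(C, w)` is a Grassmannian Thom space with the inclusion of a fibre. -/
def ThGood : Pred := fun {t} C w =>
  ∃ (n : ℕ) (J : Type) (_ : Fintype J) (_ : DecidableEq J) (f : Fin n → J)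
    (hf : Function.Injective f) (ψ : C.carrier ≃ₜ Th n J) (e : (Fin t → ℝ) ≃L[ℝ] (Fin n → ℂ)),
    ∀ v, ψ (w v) = thFib f hf (e v)

/-- the space `Th n J` -/
abbrev thSpace (n : ℕ) (J : Type) [Fintype J] : Space := ⟨Th n J⟩

theorem thGood_th {t n : ℕ} {J : Type} [Fintype J] [DecidableEq J] (f : Fin n → J)
    (hf : Function.Injective f) (e : (Fin t → ℝ) ≃L[ℝ] (Fin n → ℂ)) :
    ThGood (thSpace n J) (fun v => thFib f hf (e v)) :=
  ⟨n, J, inferInstance, inferInstance, f, hf, Homeomorph.refl _, e, fun _ => rfl⟩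

end Vale.Agent.P093.Final
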