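import Vale.Agent.P093.Final.Dyn

/-!
# P093: the parameters

`da_of_static` : `StaticThm` implies that for every minimal `h`, every crossed product `A` and every
comparison bound `r < mdim(h) / 2` the data `DA ThGood h` exist. `final_of_parts` : the lower bound
`mdim(h) / 2 ≤ rc(A)` from `StaticThm`, part N and part U.
-/

open Set Filter TopologicalSpace
open scoped ENNReal
open Vale.Agent.P251.St (Space)
open Vale.Agent.P093.Hom

namespace Vale.Agent.P093.Final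

universe u v

/-- a cover with `2 r < δ(W)` -/
theorem exists_cover_gap {X : Type*} [TopologicalSpace X] [CompactSpace X] [T2Space X]
    {h : X ≃ₜ X} {r : ℝ} (hr : 0 ≤ r) (hlt : ENNReal.ofReal r < meanDim h / 2) :
    ∃ W : Set (Set X), IsFinOpenCover W ∧ ∃ δ : ℝ, coverRate h W = ENNReal.ofReal δ ∧
      2 * r < δ := by
  have h1 : ENNReal.ofReal r * 2 < meanDim h := by
    rwa [ENNReal.lt_div_iff_mul_lt (Or.inl two_ne_zero) (Or.inl ENNReal.ofNat_ne_top)] at hlt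
  have h2 : ENNReal.ofReal (2 * r) < meanDim h := by
    rwa [mul_comm 2 r, ENNReal.ofReal_mul hr, ENNReal.ofReal_ofNat]
  obtain ⟨⟨W, hW⟩, h3⟩ := lt_iSup_iff.1 h2
  refine ⟨W, hW, (coverRate h W).toReal, (ENNReal.ofReal_toReal (coverRate_ne_top h hW)).symm, ?_⟩
  have h4 : ENNReal.ofReal (2 * r) < coverRate h W := h3
  exact (ENNReal.ofReal_lt_iff_lt_toReal (by linarith) (coverRate_ne_top h hW)).1 h4

/-- lengths `L` for which the order of `W^[0,L)` is close to `δ L` -/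
theorem exists_length {X : Type*} [TopologicalSpace X] {h : X ≃ₜ X} {W : Set (Set X)} {δ : ℝ}
    (hδ : coverRate h W = ENNReal.ofReal δ) (hδ0 : 0 < δ) {η : ℝ} (hη : 0 < η) (hηδ : η < δ)
    (L₀ : ℕ) :
    ∃ L : ℕ, L₀ ≤ L ∧ (δ - η) * L ≤ (coverDim (iterCover h W L) : ℝ) ∧
      (coverDim (iterCover h W L) : ℝ) ≤ (δ + η) * L := by
  have hlt : ENNReal.ofReal (δ - η) <
      limsup (fun N : ℕ => (coverDim (iterCover h W N) : ℝ≥0∞) / N) atTop := by
    change _ < coverRate h W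
    rw [hδ]
    exact (ENNReal.ofReal_lt_ofReal_iff_of_nonneg (by linarith)).2 (by linarith)
  have hgt : limsup (fun N : ℕ => (coverDim (iterCover h W N) : ℝ≥0∞) / N) atTop <
      ENNReal.ofReal (δ + η) := by
    change coverRate h W < _
    rw [hδ]
    exact (ENNReal.ofReal_lt_ofReal_iff_of_nonneg hδ0.le).2 (by linarith)
  obtain ⟨L, ⟨h1, h2⟩, h3⟩ := ((frequently_lt_of_lt_limsup (by isBoundedDefault) hlt).and_eventually
    (eventually_lt_of_limsup_lt hgt)).and_eventually (eventually_ge_atTop (max L₀ 1)) |>.exists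
  have hL0 : L₀ ≤ L := (le_max_left _ _).trans h3
  have hL1 : 1 ≤ L := (le_max_right _ _).trans h3
  have hN0' : (L : ℝ≥0∞) ≠ 0 := by
    have : L ≠ 0 := by omega
    exact_mod_cast this
  refine ⟨L, hL0, ?_, ?_⟩
  · rw [ENNReal.lt_div_iff_mul_lt (Or.inl hN0') (Or.inl (ENNReal.natCast_ne_top L))] at h1
    have h4 : ENNReal.ofReal (δ - η) * (L : ℝ≥0∞) = ENNReal.ofReal ((δ - η) * L) := by
      rw [ENNReal.ofReal_mul (by linarith), ENNReal.ofReal_natCast]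
    rw [h4, ← ENNReal.ofReal_natCast (coverDim _)] at h1
    have h5 : (0 : ℝ) ≤ (δ - η) * L := mul_nonneg (by linarith) (Nat.cast_nonneg _)
    exact ((ENNReal.ofReal_lt_ofReal_iff_of_nonneg h5).1 h1).le
  · rw [ENNReal.div_lt_iff (Or.inl hN0') (Or.inl (ENNReal.natCast_ne_top L))] at h2
    have h4 : ENNReal.ofReal (δ + η) * (L : ℝ≥0∞) = ENNReal.ofReal ((δ + η) * L) := by
      rw [ENNReal.ofReal_mul (by linarith), ENNReal.ofReal_natCast]
    rw [h4, ← ENNReal.ofReal_natCast (coverDim _)] at h2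
    exact ((ENNReal.ofReal_lt_ofReal_iff_of_nonneg (Nat.cast_nonneg _)).1 h2).le

/-- the elementary inequality behind the choice of `κ`, `ε`, `L` -/
theorem param_ineq {δ r g s η ε : ℝ} {κ L n : ℕ} (hκ : 1 ≤ κ) (hL : 0 < L)
    (hg : κ * δ / (2 * κ + 1) = g + r) (hg0 : 0 < g) (hs : s = g / 4)
    (hη0 : 0 < η) (hη : η ≤ g / 2) (hε0 : 0 < ε) (hε1 : ε ≤ 1 / 2) (hε : ε * (g + r) ≤ g / 8)
    (hLκ : (κ : ℝ) / L ≤ g / 8) (hn : (δ - η) * L ≤ n) :
    s + r < κ * (((n + 1) / (2 * κ + 1) : ℕ) : ℝ) * (1 - ε) / L := by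
  have hκ' : (1 : ℝ) ≤ κ := by exact_mod_cast hκ
  have hL' : (0 : ℝ) < L := by exact_mod_cast hL
  have h2κ : (0 : ℝ) < 2 * κ + 1 := by linarith
  -- lower bound of the integer part
  have h1 : ((n : ℝ) + 1) / (2 * κ + 1) - 1 ≤ (((n + 1) / (2 * κ + 1) : ℕ) : ℝ) := by
    have h2 : n + 1 < (2 * κ + 1) * ((n + 1) / (2 * κ + 1) + 1) :=
      Nat.lt_mul_div_succ _ (by omega)
    have h3 : ((n : ℝ) + 1) < (2 * κ + 1) * ((((n + 1) / (2 * κ + 1) : ℕ) : ℝ) + 1) := by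
      exact_mod_cast h2
    have h4 : ((n : ℝ) + 1) / (2 * κ + 1) < (((n + 1) / (2 * κ + 1) : ℕ) : ℝ) + 1 := by
      rw [div_lt_iff₀ h2κ]
      linarith
    linarith
  have hδη : κ * (δ - η) / (2 * κ + 1) ≥ g + r - η / 2 := by
    have h5 : κ * (δ - η) / (2 * κ + 1) = κ * δ / (2 * κ + 1) - κ / (2 * κ + 1) * η := by
      field_simp
    have h6 : (κ : ℝ) / (2 * κ + 1) ≤ 1 / 2 := by
      rw [div_le_div_iff₀ h2κ (by norm_num)]
      linarith
    rw [h5, hg]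
    nlinarith
  have h7 : κ * (((n : ℝ) + 1) / (2 * κ + 1)) / L ≥ g + r - η / 2 := by
    refine le_trans hδη ?_
    rw [← mul_div_assoc, div_div, div_le_div_iff₀ h2κ (mul_pos h2κ hL')]
    have h8 : (κ : ℝ) * ((δ - η) * L) * (2 * κ + 1) ≤ κ * ((n : ℝ) + 1) * (2 * κ + 1) := by
      have : (κ : ℝ) * ((δ - η) * L) ≤ κ * ((n : ℝ) + 1) :=
        mul_le_mul_of_nonneg_left (by linarith) (by linarith)
      exact mul_le_mul_of_nonneg_right this h2κ.le
    linarith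
  have h9 : κ * (((n + 1) / (2 * κ + 1) : ℕ) : ℝ) / L ≥ g + r - η / 2 - κ / L := by
    have h10 : κ * (((n : ℝ) + 1) / (2 * κ + 1) - 1) / L ≤
        κ * (((n + 1) / (2 * κ + 1) : ℕ) : ℝ) / L := by
      apply div_le_div_of_nonneg_right _ hL'.le
      exact mul_le_mul_of_nonneg_left h1 (by linarith)
    have h11 : κ * (((n : ℝ) + 1) / (2 * κ + 1) - 1) / L =
        κ * (((n : ℝ) + 1) / (2 * κ + 1)) / L - κ / L := by ring
    rw [h11] at h10
    linarith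
  have h12 : κ * (((n + 1) / (2 * κ + 1) : ℕ) : ℝ) * (1 - ε) / L =
      κ * (((n + 1) / (2 * κ + 1) : ℕ) : ℝ) / L * (1 - ε) := by ring
  rw [h12]
  have h13 : g + r - η / 2 - κ / L ≥ g + r - 3 * g / 8 := by linarith
  have h14 : (g + r - 3 * g / 8) * (1 - ε) ≤
      κ * (((n + 1) / (2 * κ + 1) : ℕ) : ℝ) / L * (1 - ε) :=
    mul_le_mul_of_nonneg_right (by linarith) (by linarith)
  nlinarith

/-- the elementary inequality behind the choice of `N` -/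
theorem rate_ineq {δ σ η n L N eW C' κ s y E K : ℝ} (hL : 0 < L) (hN : 0 < N) (hκ : 1 ≤ κ)
    (hLσ : 1 / L ≤ σ / 8) (hη : η ≤ σ / 8) (hn : n ≤ (δ + η) * L) (heW : eW ≤ σ / 8)
    (hσ : σ = s / (2 * κ)) (hy : y = (s * N - |C'| - 1) / (2 * κ))
    (hE : E = (n + 1) * (N / L) + eW * N + C') (hK : K = |C'| + (|C'| + 1) / (2 * κ) + 2)
    (hNb : K < N * (σ / 2)) : E + 1 - y < δ * N := by
  have h4 : (n + 1) * (N / L) = n / L * N + 1 / L * N := by
    field_simp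
  have h5 : n / L ≤ δ + η := by
    rw [div_le_iff₀ hL]
    exact hn
  have h6 : n / L * N ≤ (δ + η) * N := mul_le_mul_of_nonneg_right h5 hN.le
  have h7 : 1 / L * N ≤ σ / 8 * N := mul_le_mul_of_nonneg_right hLσ hN.le
  have h8 : eW * N ≤ σ / 8 * N := mul_le_mul_of_nonneg_right heW hN.le
  have h9 : y = σ * N - (|C'| + 1) / (2 * κ) := by
    rw [hy, hσ]
    field_simp
    ring
  have h10 : η * N ≤ σ / 8 * N := mul_le_mul_of_nonneg_right hη hN.le
  have h12 : C' ≤ |C'| := le_abs_self _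
  have h13 : (δ + η) * N = δ * N + η * N := add_mul _ _ _
  have hK0 : 0 < K := by
    rw [hK]
    have : (0 : ℝ) < 2 * κ := by linarith
    positivity
  rw [hE, h4, h9]
  linarith

/-- The dynamical part: `StaticThm` implies `DA ThGood h`. -/
theorem da_of_static (hst : StaticThm.{u}) (X : Type u) [TopologicalSpace X] [CompactSpace X]
    [MetrizableSpace X] [Infinite X] (h : X ≃ₜ X) (hmin : IsMinimalHomeo h)
    (A : Type v) [CStarAlgebra A] [PartialOrder A] [StarOrderedRing A]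
    (hA : IsCrossedProduct h A) (r : ℝ) (hr : IsComparisonBound A r)
    (hlt : ENNReal.ofReal r < meanDim h / 2) : DA ThGood h := by
  let _ := metrizableSpaceMetric X
  have hr0 : 0 ≤ r := hr.1
  obtain ⟨W, hW, δ, hδ, hδr⟩ := exists_cover_gap hr0 hlt
  have hδ0 : 0 < δ := by linarith
  -- the number of levels
  obtain ⟨κ, hκ⟩ := exists_nat_gt ((r + 1) / (δ - 2 * r))
  have hd2 : 0 < δ - 2 * r := by linarith
  rw [div_lt_iff₀ hd2] at hκ
  have hκ1 : 1 ≤ κ := by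
    rcases Nat.eq_zero_or_pos κ with h0 | h0
    · rw [h0] at hκ
      simp at hκ
      linarith
    · exact h0
  have hκ' : (1 : ℝ) ≤ κ := by exact_mod_cast hκ1
  have h2κ : (0 : ℝ) < 2 * κ + 1 := by linarith
  obtain ⟨g, hg⟩ : ∃ g : ℝ, g = κ * δ / (2 * κ + 1) - r := ⟨_, rfl⟩
  have hg0 : 0 < g := by
    rw [hg, sub_pos, lt_div_iff₀ h2κ]
    nlinarith
  have hgr : κ * δ / (2 * κ + 1) = g + r := by rw [hg]; ring
  obtain ⟨s, hs⟩ : ∃ s : ℝ, s = g / 4 := ⟨_, rfl⟩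
  have hs0 : 0 < s := by rw [hs]; linarith
  obtain ⟨σ, hσ⟩ : ∃ σ : ℝ, σ = s / (2 * κ) := ⟨_, rfl⟩
  have hσ0 : 0 < σ := by rw [hσ]; positivity
  -- the error terms
  obtain ⟨η, hη0, hη1, hη2, hη3⟩ : ∃ η : ℝ, 0 < η ∧ η ≤ g / 2 ∧ η < δ ∧ η ≤ σ / 8 := by
    refine ⟨min (min (g / 2) (δ / 2)) (σ / 8), by positivity,
      (min_le_left _ _).trans (min_le_left _ _), ?_, min_le_right _ _⟩
    have := (min_le_left (min (g / 2) (δ / 2)) (σ / 8)).trans (min_le_right _ _)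
    linarith
  obtain ⟨ε, hε0, hε1, hε2, hε3⟩ : ∃ ε : ℝ, 0 < ε ∧ ε ≤ 1 / 2 ∧ ε * (g + r) ≤ g / 8 ∧
      (coverDim W + 1) * ε ≤ σ / 8 := by
    have hgr0 : 0 < g + r := by linarith
    have hc0 : (0 : ℝ) < coverDim W + 1 := by positivity
    refine ⟨min (min (1 / 2) (g / 8 / (g + r))) (σ / 8 / (coverDim W + 1)), by positivity,
      (min_le_left _ _).trans (min_le_left _ _), ?_, ?_⟩
    · rw [← le_div_iff₀ hgr0]
      exact (min_le_left _ _).trans (min_le_right _ _)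
    · rw [mul_comm, ← le_div_iff₀ hc0]
      exact min_le_right _ _
  -- the length `L`
  obtain ⟨L₀, hL₀⟩ := exists_nat_gt (8 * κ / g + 8 / σ)
  obtain ⟨L, hLL, hLn, hLn'⟩ := exists_length hδ hδ0 hη0 hη2 L₀
  have hLr : 8 * κ / g + 8 / σ < L := hL₀.trans_le (by exact_mod_cast hLL)
  have hL' : (0 : ℝ) < L := lt_trans (by positivity) hLr
  have hL0 : 0 < L := by exact_mod_cast hL'
  have hLκ : (κ : ℝ) / L ≤ g / 8 := by
    have h1 : 8 * κ / g < L := lt_of_le_of_lt (by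
      have : 0 < 8 / σ := by positivity
      linarith) hLr
    rw [div_lt_iff₀ hg0] at h1
    rw [div_le_iff₀ hL']
    linarith
  have hLσ : 1 / (L : ℝ) ≤ σ / 8 := by
    have h1 : 8 / σ < L := lt_of_le_of_lt (by
      have : 0 < 8 * κ / g := by positivity
      linarith) hLr
    rw [div_lt_iff₀ hσ0] at h1
    rw [div_le_iff₀ hL']
    linarith
  have hs1 := param_ineq hκ1 hL0 hgr hg0 hs hη0 hη1 hε0 hε1 hε2 hLκ hLn
  obtain ⟨C', hC'⟩ := dyn_csmall hst hmin hA hr hW hκ1 hL0 hε0 hs0.le hs1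
  -- the window length `N`
  obtain ⟨K, hK⟩ : ∃ K : ℝ, K = |C'| + (|C'| + 1) / (2 * κ) + 2 := ⟨_, rfl⟩
  have hK0 : 0 < K := by
    rw [hK]
    positivity
  obtain ⟨N, hN⟩ := exists_nat_gt ((|C'| + 1) / s + K / (σ / 2))
  have hNa : (|C'| + 1) / s < N := lt_of_le_of_lt (by
    have : 0 < K / (σ / 2) := by positivity
    linarith) hN
  have hNb : K / (σ / 2) < N := lt_of_le_of_lt (by
    have : 0 < (|C'| + 1) / s := by positivity
    linarith) hN
  rw [div_lt_iff₀ hs0] at hNa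
  rw [div_lt_iff₀ (by linarith)] at hNb
  have hN' : (0 : ℝ) < N := by
    by_contra h0
    push Not at h0
    have : (0 : ℝ) ≤ |C'| := abs_nonneg _
    nlinarith
  have hN0 : 0 < N := by exact_mod_cast hN'
  have hCC : C' ≤ |C'| := le_abs_self _
  obtain ⟨y, hy⟩ : ∃ y : ℝ, y = (s * N - |C'| - 1) / (2 * κ) := ⟨_, rfl⟩
  have hy0 : 0 ≤ y := by
    rw [hy]
    apply div_nonneg _ (by positivity)
    linarith
  have h2κ0 : (0 : ℝ) < 2 * κ := by linarith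
  have hya : 2 * κ * (⌊y⌋₊ : ℝ) + 1 ≤ s * N - C' := by
    have h1 : (⌊y⌋₊ : ℝ) ≤ y := Nat.floor_le hy0
    have h2 : 2 * κ * (⌊y⌋₊ : ℝ) ≤ 2 * κ * y := mul_le_mul_of_nonneg_left h1 h2κ0.le
    have h3 : 2 * κ * y = s * N - |C'| - 1 := by
      rw [hy]
      field_simp
    linarith
  have hya' : y - 1 < (⌊y⌋₊ : ℝ) := by
    have := Nat.lt_floor_add_one y
    linarith
  obtain ⟨E, hE⟩ : ∃ E : ℝ, E = (coverDim (iterCover h W L) + 1) * (N / L : ℝ) +
    (coverDim W + 1) * (ε * N) + C' := ⟨_, rfl⟩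
  have hsm := hC' N ⌊y⌋₊ (⌈E⌉₊ - ⌊y⌋₊ - 1) hya (by
    rw [← hE]
    have h1 : E ≤ (⌈E⌉₊ : ℝ) := Nat.le_ceil E
    have h2 : ⌈E⌉₊ ≤ (⌈E⌉₊ - ⌊y⌋₊ - 1) + ⌊y⌋₊ + 1 := by omega
    have h3 : (⌈E⌉₊ : ℝ) ≤ ((⌈E⌉₊ - ⌊y⌋₊ - 1 : ℕ) : ℝ) + ⌊y⌋₊ + 1 := by exact_mod_cast h2
    linarith)
  obtain ⟨t, C, w, hw, hG, hCS⟩ := hsm
  refine ⟨W, N, t, ⌈E⌉₊ - ⌊y⌋₊ - 1, C, w, hW, hN0, hw, hG, hCS, ?_⟩
  -- the rate
  have hD : ((⌈E⌉₊ - ⌊y⌋₊ - 1 : ℕ) : ℝ) < δ * N := by
    rcases le_or_gt ⌈E⌉₊ (⌊y⌋₊ + 1) with h0 | h0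
    · have h1 : ⌈E⌉₊ - ⌊y⌋₊ - 1 = 0 := by omega
      rw [h1, Nat.cast_zero]
      positivity
    · have h1 : ((⌈E⌉₊ - ⌊y⌋₊ - 1 : ℕ) : ℝ) = (⌈E⌉₊ : ℝ) - ⌊y⌋₊ - 1 := by
        rw [Nat.sub_sub, Nat.cast_sub (by omega)]
        push_cast
        ring
      have hE0 : 0 ≤ E := by
        by_contra hneg
        push Not at hneg
        rw [Nat.ceil_eq_zero.2 hneg.le] at h0
        omega
      have h2 : (⌈E⌉₊ : ℝ) < E + 1 := Nat.ceil_lt_add_one hE0
      rw [h1]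
      have hE' : E = ((coverDim (iterCover h W L) : ℝ) + 1) * ((N : ℝ) / L) +
          ((coverDim W : ℝ) + 1) * ε * N + C' := by rw [hE]; ring
      have h3 := rate_ineq (C' := C') hL' hN' hκ' hLσ hη3 hLn' hε3 hσ hy hE' hK hNb
      linarith
  have hN0' : (N : ℝ≥0∞) ≠ 0 := by exact_mod_cast hN0.ne'
  rw [hδ, ENNReal.div_lt_iff (Or.inl hN0') (Or.inl (ENNReal.natCast_ne_top N)),
    ← ENNReal.ofReal_natCast (⌈E⌉₊ - ⌊y⌋₊ - 1), ← ENNReal.ofReal_natCast N,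
    ← ENNReal.ofReal_mul hδ0.le]
  exact (ENNReal.ofReal_lt_ofReal_iff_of_nonneg (Nat.cast_nonneg _)).2 hD

/-- **The final theorem from its three parts**: A (`StaticThm`), N, U. -/
theorem final_of_parts (hst : StaticThm.{u})
    (hN : ∀ {t : ℕ} (C : Space) (w : (Fin t → ℝ) → C.carrier), ThGood C w → U.LR C w)
    (hU : ∀ (X : Type u) [TopologicalSpace X] [CompactSpace X] [T2Space X] (h : X ≃ₜ X),
      PartU X h) :
    ∀ (X : Type u) [TopologicalSpace X] [CompactSpace X] [MetrizableSpace X] [Infinite X]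
      (h : X ≃ₜ X), IsMinimalHomeo h →
      ∀ (A : Type v) [CStarAlgebra A] [PartialOrder A] [StarOrderedRing A],
        IsCrossedProduct h A → meanDim h / 2 ≤ radiusOfComparison A :=
  final_of ThGood hN hU fun X _ _ _ _ h hmin A _ _ _ hA r hr hlt =>
    da_of_static hst X h hmin A hA r hr hlt

end Vale.Agent.P093.Final
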