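import Vale.Agent.P093.Final.Good
import Vale.Agent.P093.HB.H3

/-!
# P093: the interface between the dynamical part D and part A

`StaticThm` is the linear version of `Hom.static`: `F γ k e x` is a linear form on `ℂ ^ (2 κ a + 1)`,
jointly continuous, jointly injective, and subject to the Hopf relations over the nested cube
coordinates `χ (crd γ i)`. The conclusion is `CSmall` for a Grassmannian Thom space, with `a + 1`
cube coordinates saved.
-/

open Set
open Vale.Agent.P251.St (Space)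
open Vale.Agent.P093.Hom

namespace Vale.Agent.P093.Final

universe u

/-- output of part A for a family of sets `𝒲` and an order `D` -/
def HasCSmall {X : Type u} [TopologicalSpace X] (𝒲 : Set (Set X)) (D : ℕ) : Prop :=
  ∃ (t : ℕ) (C : Space) (w : (Fin t → ℝ) → C.carrier),
    Topology.IsClosedEmbedding w ∧ ThGood C w ∧ U.CSmall 𝒲 C w D

open scoped Classical in
/-- The linear static theorem (statement of part A). -/
def StaticThm : Prop :=
  ∀ (X : Type u) [MetricSpace X] [CompactSpace X] (C : Type) (κ a m : ℕ) (_ : 1 ≤ κ)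
    (χ : C → X → ℝ) (_ : ∀ c, Continuous (χ c)) (crd : Fin m → ℕ → C) (ss : List C)
    (F : Fin m → Fin κ → Fin 2 → X → (Fin (2 * κ * a + 1) → ℂ) →ₗ[ℂ] ℂ)
    (_ : ∀ γ k e, Continuous fun z : X × (Fin (2 * κ * a + 1) → ℂ) => F γ k e z.1 z.2)
    (_ : ∀ x q, q ≠ 0 → ∃ γ k e, F γ k e x q ≠ 0)
    (_ : ∀ γ (k : Fin κ) x q,
      rho k / 2 ≤ rad (nF (fun i x => χ (crd γ i) x - 1 / 2) rho k)
        (fun x => χ (crd γ (2 * k + 1)) x - 1 / 2) (fun x => χ (crd γ (2 * k + 2)) x - 1 / 2) x →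
      HopfRel (nF (fun i x => χ (crd γ i) x - 1 / 2) rho k x)
        (χ (crd γ (2 * k + 1)) x - 1 / 2) (χ (crd γ (2 * k + 2)) x - 1 / 2)
        (F γ k 0 x q) (F γ k 1 x q))
    (actv : Fin m → Set X) (_ : ∀ γ k e x q, F γ k e x q ≠ 0 → x ∈ actv γ)
    (_ : ∀ γ x, x ∉ actv γ → ∀ i ≤ 2 * κ, χ (crd γ i) x ≤ 1 / 8)
    (𝒲 : Set (Set X)) (_ : IsFinOpenCover 𝒲) (W : X → Set C → Set X) (δ₁ : ℝ) (_ : 0 < δ₁)
    (_ : ∀ x x', dist x x' < δ₁ → ∀ A : Set C,
      (∀ c ∈ A, c ∈ coords κ crd ss ∧ 1 / 8 < χ c x) →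
      (∀ c ∈ coords κ crd ss, 7 / 8 < χ c x → c ∈ A) → W x A ∈ 𝒲 ∧ x' ∈ W x A ∧ W x' A = W x A)
    (D : ℕ) (_ : ∀ x, (2 * κ + 1) * (Finset.univ.filter fun γ => x ∈ actv γ).card +
      (ss.filter fun c => 1 / 8 < χ c x ∧ χ c x < 7 / 8).length ≤ D + a + 1),
    HasCSmall 𝒲 D

end Vale.Agent.P093.Final
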