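import Vale.Agent.P093.Final.WithU
import Vale.Agent.P093.L192.ThLR
import Vale.Agent.P093.N4.ThSplitU
import Vale.Agent.P093.N.Final
import Vale.Agent.P251.St.Result

/-!
# P093: the final theorem from part A and the vanishing lines

* `AvlIn` : output of part N: in some stable homotopy category with a suspension spectrum functor all
  absolute vanishing lines hold, for a unit `𝟙 ⟶ E` over which fibre inclusions of Thom spaces split;
* `NIn` : the five inputs of `N.Fin.avl`, for `MU`; `avlIn_of` : they imply `AvlIn`;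
* `final_of_static_avl`, `final_of_inputs`.
-/

open CategoryTheory MonoidalCategory TopologicalSpace
open Vale.Agent.P251.St (Space SHCat Susp)
open Vale.Agent.P251.T Vale.Agent.P251.I Vale.Agent.P251.M
open Vale.Agent.P093.N.TT Vale.Agent.P093.N.LR Vale.Agent.P093.N.Fin

namespace Vale.Agent.P093.Final

universe u v

/-- output of part N -/
def AvlIn : Prop :=
  ∃ (T : SHCat) (S : Susp T) (U : UTri T.C),
    (∀ b : ℕ, AVL U (DimLE (T := T.C)) b) ∧ N4.ThSpl S.toSpaceFunctor U

theorem lr_of_avlIn (hN : AvlIn) {t : ℕ} (C : Space) (w : (Fin t → ℝ) → C.carrier)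
    (h : ThGood C w) : Vale.Agent.P093.U.LR C w := by
  obtain ⟨T, S, U, hU, hT⟩ := hN
  exact L192.lr_of_thGood S hU hT C w h

/-- **The final theorem from part A and the vanishing lines.** -/
theorem final_of_static_avl (hst : StaticThm.{u}) (hN : AvlIn) :
    ∀ (X : Type u) [TopologicalSpace X] [CompactSpace X] [MetrizableSpace X] [Infinite X]
      (h : X ≃ₜ X), IsMinimalHomeo h →
      ∀ (A : Type v) [CStarAlgebra A] [PartialOrder A] [StarOrderedRing A],
        IsCrossedProduct h A → meanDim h / 2 ≤ radiusOfComparison A :=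
  final_of_static_lr hst (lr_of_avlIn hN)

/-- the inputs of `N.Fin.avl` for one stable homotopy category and `MU` in it -/
structure NIn (T : SHCat) (F : SpaceFunctor T.C) (D : MUData T.C) : Prop where
  vl : ∀ (b : ℕ) (p : ℕ), p.Prime → VlIn (UTri.ofMon D.R) p b
  real : ∀ p : ℕ, p.Prime → RealIn F p
  ect : ∀ p : ℕ, p.Prime → EctIn F p
  dual : DualIn F
  big : ∀ b : ℕ, BigIn (UTri.ofMon D.R) b

theorem avlIn_of (H : ∀ (T : SHCat) (F : SpaceFunctor T.C) (D : MUData T.C),
    MUUniv (Vale.Agent.P251.M.lineIso F) D → N0.MUAll D → NIn T F D) : AvlIn := by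
  obtain ⟨T, ⟨S⟩⟩ := Vale.Agent.P251.St.nonempty_susp
  obtain ⟨D, h1, h2, h3⟩ := N4.exists_muAll_thSpl S.toSpaceFunctor
    (Vale.Agent.P251.M.lineIso S.toSpaceFunctor)
  have h := H T S.toSpaceFunctor D h1 h2
  exact ⟨T, S, UTri.ofMon D.R, fun b => avl (by exact_mod_cast Nat.zero_le b) (h.vl b) h.real h.ect
    h.dual (h.big b), h3⟩

/-- **The final theorem from `StaticThm` and the five inputs of part N.** -/
theorem final_of_inputs (hst : StaticThm.{u})
    (H : ∀ (T : SHCat) (F : SpaceFunctor T.C) (D : MUData T.C),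
      MUUniv (Vale.Agent.P251.M.lineIso F) D → N0.MUAll D → NIn T F D) :
    ∀ (X : Type u) [TopologicalSpace X] [CompactSpace X] [MetrizableSpace X] [Infinite X]
      (h : X ≃ₜ X), IsMinimalHomeo h →
      ∀ (A : Type v) [CStarAlgebra A] [PartialOrder A] [StarOrderedRing A],
        IsCrossedProduct h A → meanDim h / 2 ≤ radiusOfComparison A :=
  final_of_static_avl hst (avlIn_of H)

end Vale.Agent.P093.Final
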