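import Vale.Agent.P093.Final.Param
import Vale.Agent.P093.U.Main

/-!
# P093: the final theorem from parts A and N

Part U is `U.main`.
-/

open TopologicalSpace
open Vale.Agent.P251.St (Space)

namespace Vale.Agent.P093.Final

universe u v

theorem partU (X : Type u) [TopologicalSpace X] [CompactSpace X] [T2Space X] (h : X ≃ₜ X) :
    PartU X h :=
  fun _ hW _ _ _ hN _ _ hw hA hL => U.main h hW hN hw hA hL

/-- **The final theorem from parts A (`StaticThm`) and N.** -/
theorem final_of_static_lr (hst : StaticThm.{u})
    (hN : ∀ {t : ℕ} (C : Space) (w : (Fin t → ℝ) → C.carrier), ThGood C w → U.LR C w) :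
    ∀ (X : Type u) [TopologicalSpace X] [CompactSpace X] [MetrizableSpace X] [Infinite X]
      (h : X ≃ₜ X), IsMinimalHomeo h →
      ∀ (A : Type v) [CStarAlgebra A] [PartialOrder A] [StarOrderedRing A],
        IsCrossedProduct h A → meanDim h / 2 ≤ radiusOfComparison A :=
  final_of_parts hst hN fun X _ _ _ h => partU X h

end Vale.Agent.P093.Final
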